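import Vale.Agent.P113.Main
import Vale.Agent.P113.H109.PartC

/-!
# P113, Q1: full (positive) answer

For every `ν > 0` (computable or not), with one rational point, one rational box and one force
compiler.
-/

open Set
open scoped ContDiff
open Vale.Agent.P113

namespace Vale.Agent.Results.P113.HaltingTrajectories

/-- There are a rational point `a`, an open box with rational corners `lo`, `hi` and sides at most
`1`, and a force compiler `F` such that, for every `ν > 0`, every machine `M` and every input `w`:
the force is smooth; the Navier-Stokes system on the flat three-torus with this force and initial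
velocity zero has a global smooth solution `(u, p)`; it is unique among the classical solutions on
each `[0, T]`; and the trajectory of `a` lies in the image of the box at some real time `t ≥ 0` if
and only if `M` halts on `w`. -/
theorem result :
    ∃ (a lo hi : Fin 3 → ℚ) (F : Machine × List ℕ → Fin 3 → List TermCode),
      (∀ i, lo i < hi i ∧ hi i ≤ lo i + 1) ∧ IsForceCompiler F ∧
      ∀ ν : ℝ, 0 < ν → ∀ (M : Machine) (w : List ℕ),
        ContDiff ℝ ∞ (fun z : ℝ × E => forceVal ν (F (M, w)) z.1 z.2) ∧
        ∃ (u : ℝ → E → E) (p : ℝ → E → ℝ),
          IsGlobalSmoothSolution ν (forceVal ν (F (M, w))) u p ∧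
          (∀ T : ℝ, 0 < T → ∀ (v : ℝ → E → E) (q : ℝ → E → ℝ),
            IsClassicalSolution ν (forceVal ν (F (M, w))) (Icc 0 T) v q →
              ∀ t ∈ Icc 0 T, v t = u t ∧ q t = p t) ∧
          (∃ X : ℝ → E, IsTrajectory u (fun i => (a i : ℝ)) X) ∧
          ∀ X : ℝ → E, IsTrajectory u (fun i => (a i : ℝ)) X →
            (Meets lo hi X ↔ M.Halts w) :=
  full_of_partC H109.partC

end Vale.Agent.Results.P113.HaltingTrajectories
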